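import Vale.Agent.P217.Main

/-!
Chai's invariant ideal question for the Lubin-Tate rings, all primes and all heights.
-/

open MvPowerSeries Vale.Agent.P217

namespace Vale.Agent.Results.P217.ChaiInvariantIdeals

theorem result : ∀ (p n : ℕ) [Fact p.Prime], 1 ≤ n →
    (∃ F, IsUniversalDeformation p n F) ∧ ∀ F, IsUniversalDeformation p n F →
      (∀ h ≤ n, (heightIdeal p n h).IsPrime ∧ IsInvariantIdeal p n F (heightIdeal p n h)) ∧
      (∀ P : Ideal (LTRing p n), P.IsPrime →
        (∀ φ ∈ stabilizerImage p n F, (∀ w, φ (C w) = C w) → Ideal.map φ.toRingHom P = P) →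
        ∃ h ≤ n, P = heightIdeal p n h) ∧
      (∀ J : Ideal (LTRing p n), J.IsRadical →
        (∀ φ ∈ stabilizerImage p n F, (∀ w, φ (C w) = C w) → Ideal.map φ.toRingHom J = J) →
        J = ⊤ ∨ ∃ h ≤ n, J = heightIdeal p n h) ∧
      (∀ g : PowerSeries (GaloisField p n),
        IsFGIso (F.map (resLT p n)) (F.map (resLT p n)) g →
        ∃ φ : LTRing p n ≃+* LTRing p n, (∀ w, φ (C w) = C w) ∧
          ∃ θ : PowerSeries (LTRing p n), IsFGIso F (F.map φ.toRingHom) θ ∧
            θ.map (resLT p n) = g) ∧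
      (∀ (φ φ' : LTRing p n ≃+* LTRing p n) (θ θ' : PowerSeries (LTRing p n)),
        (∀ w, φ (C w) = C w) → (∀ w, φ' (C w) = C w) → IsFGIso F (F.map φ.toRingHom) θ →
        IsFGIso F (F.map φ'.toRingHom) θ' → θ.map (resLT p n) = θ'.map (resLT p n) → φ = φ') ∧
      (∀ τ : WittVector p (GaloisField p n) ≃+* WittVector p (GaloisField p n),
        ∃ φ ∈ stabilizerImage p n F, ∀ w, φ (C w) = C (τ w)) :=
  fun _ _ _ hn ↦ classification hn

end Vale.Agent.Results.P217.ChaiInvariantIdeals
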